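import Mathlib

/-!
# Normal projections along an immersed patch
-/

namespace Vale.Agent.P216.Onto

open Filter Topology Set Function Metric
open scoped RealInnerProductSpace ContinuousLinearMap

variable {V E : Type*} [NormedAddCommGroup V] [InnerProductSpace ℝ V] [FiniteDimensional ℝ V]
  [NormedAddCommGroup E] [InnerProductSpace ℝ E] [FiniteDimensional ℝ E]

/-- The orthogonal projection to the complement of the range of a linear map. -/
noncomputable def coProj (A : V →L[ℝ] E) : E →L[ℝ] E :=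
  (LinearMap.range (A : V →ₗ[ℝ] E))ᗮ.starProjection

theorem coProj_apply_image (A : V →L[ℝ] E) (h : V) : coProj A (A h) = 0 :=
  Submodule.starProjection_orthogonal_apply_eq_zero ⟨h, rfl⟩

theorem coProj_idem (A : V →L[ℝ] E) (v : E) : coProj A (coProj A v) = coProj A v :=
  Submodule.starProjection_eq_self_iff.2 (Submodule.starProjection_apply_mem _ _)

theorem coProj_symm (A : V →L[ℝ] E) (v w : E) : ⟪coProj A v, w⟫ = ⟪v, coProj A w⟫ :=
  Submodule.inner_starProjection_left_eq_right _ _ _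

theorem coProj_of_orthogonal (A : V →L[ℝ] E) {x : E} (h : ∀ u, ⟪x, A u⟫ = 0) : coProj A x = x := by
  refine Submodule.starProjection_eq_self_iff.2 ?_
  rw [Submodule.mem_orthogonal']
  rintro _ ⟨u, rfl⟩
  exact h u

theorem norm_coProj_le (A : V →L[ℝ] E) (v : E) : ‖coProj A v‖ ≤ ‖v‖ := by
  refine ((coProj A).le_opNorm v).trans (mul_le_of_le_one_left (norm_nonneg _) ?_)
  exact Submodule.starProjection_norm_le _

theorem continuousAt_coProj {A₀ : V →L[ℝ] E} (h : Injective A₀) :
    ContinuousAt (coProj : (V →L[ℝ] E) → E →L[ℝ] E) A₀ := by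
  have hunit : ∀ A : V →L[ℝ] E, Injective A → IsUnit (A.adjoint ∘L A) := by
    intro A hA
    have hi : Injective (A.adjoint ∘L A) := by
      refine (injective_iff_map_eq_zero _).2 fun v hv => ?_
      have h1 : ⟪A v, A v⟫ = 0 := by
        rw [← ContinuousLinearMap.adjoint_inner_left]
        simp only [ContinuousLinearMap.comp_apply] at hv
        rw [hv, inner_zero_left]
      exact hA (by rw [inner_self_eq_zero.1 h1, map_zero])
    rw [ContinuousLinearMap.isUnit_iff_bijective]
    exact ⟨hi, LinearMap.surjective_of_injective (f := (A.adjoint ∘L A : V →L[ℝ] V).toLinearMap) hi⟩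
  set form : (V →L[ℝ] E) → E →L[ℝ] E := fun A =>
    ContinuousLinearMap.id ℝ E - (A ∘L (Ring.inverse (A.adjoint ∘L A) ∘L A.adjoint)) with hform
  have heq : ∀ A : V →L[ℝ] E, Injective A → coProj A = form A := by
    intro A hA
    ext x
    obtain ⟨U, hU⟩ := hunit A hA
    have hinv : (A.adjoint ∘L A) ∘L Ring.inverse (A.adjoint ∘L A) = 1 :=
      Ring.mul_inverse_cancel _ (hunit A hA)
    have e : (LinearMap.range (A : V →ₗ[ℝ] E)).starProjection x =
        A (Ring.inverse (A.adjoint ∘L A) (A.adjoint x)) := by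
      refine Submodule.eq_starProjection_of_mem_of_inner_eq_zero ⟨_, rfl⟩ ?_
      rintro _ ⟨u, rfl⟩
      have h2 := congrArg (fun T : V →L[ℝ] V => T (A.adjoint x)) hinv
      rw [ContinuousLinearMap.comp_apply, show (1 : V →L[ℝ] V) (A.adjoint x) = A.adjoint x from rfl] at h2
      rw [ContinuousLinearMap.comp_apply] at h2
      show ⟪x - _, A u⟫ = 0
      rw [← ContinuousLinearMap.adjoint_inner_left, map_sub, h2, sub_self, inner_zero_left]
    simp only [coProj, Submodule.starProjection_orthogonal_val, e, hform]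
    simp
  have hopen : ∀ᶠ A : V →L[ℝ] E in 𝓝 A₀, Injective (A : V → E) := by
    have := ContinuousLinearMap.isOpen_injective (𝕜 := ℝ) (E := V) (F := E)
    exact this.mem_nhds h
  refine ContinuousAt.congr ?_ (hopen.mono fun A hA => (heq A hA).symm)
  have hadj : Continuous fun A : V →L[ℝ] E => A.adjoint :=
    ContinuousLinearMap.adjoint.continuous
  have hG : Continuous fun A : V →L[ℝ] E => A.adjoint ∘L A := hadj.clm_comp continuous_id
  have hR : ContinuousAt (fun A : V →L[ℝ] E => Ring.inverse (A.adjoint ∘L A)) A₀ := by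
    obtain ⟨U, hU⟩ := hunit A₀ h
    exact ContinuousAt.comp_of_eq (NormedRing.inverse_continuousAt U) hG.continuousAt hU.symm
  exact continuousAt_const.sub
    (continuousAt_id.clm_comp (hR.clm_comp hadj.continuousAt))

variable {f : V → E} {O : Set V}

theorem continuousAt_coProj_fderiv (hO : IsOpen O) (hf : ContDiffOn ℝ 2 f O) {u : V} (hu : u ∈ O)
    (hinj : Injective (fderiv ℝ f u)) : ContinuousAt (fun u => coProj (fderiv ℝ f u)) u :=
  (continuousAt_coProj hinj).comp (f := fun u => fderiv ℝ f u)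
    ((hf.continuousOn_fderiv_of_isOpen hO (by norm_num)).continuousAt (hO.mem_nhds hu))

theorem exists_chord_bound (hO : IsOpen O) (hf : ContDiffOn ℝ 2 f O) {u₀ : V} (hu : u₀ ∈ O)
    (hinj : Injective (fderiv ℝ f u₀)) : ∃ η > 0, ∃ C : ℝ, ∀ u ∈ ball u₀ η, ∀ u' ∈ ball u₀ η,
      ‖coProj (fderiv ℝ f u) (f u' - f u)‖ ≤ C * ‖f u' - f u‖ ^ 2 := by
  have hd : ∀ u ∈ O, DifferentiableAt ℝ f u := fun u hu =>
    (hf.differentiableOn (by norm_num)).differentiableAt (hO.mem_nhds hu)
  -- the derivative is Lipschitz nearby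
  have hf' : ContDiffOn ℝ 1 (fderiv ℝ f) O := hf.fderiv_of_isOpen hO (by norm_num)
  obtain ⟨L, T, hT, hL⟩ := (hf'.contDiffAt (hO.mem_nhds hu)).exists_lipschitzOnWith
  -- the map is bounded below nearby
  obtain ⟨c, hc, hanti⟩ := (fderiv ℝ f u₀).toLinearMap.exists_antilipschitzWith
    (LinearMap.ker_eq_bot.2 hinj)
  have hcR : (0 : ℝ) < c := by exact_mod_cast hc
  have hnear : ∀ᶠ u in 𝓝 u₀, ‖fderiv ℝ f u - fderiv ℝ f u₀‖ ≤ 1 / (2 * c) := by
    have := ((hf.continuousOn_fderiv_of_isOpen hO (by norm_num)).continuousAt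
      (hO.mem_nhds hu)).tendsto
    rw [Metric.tendsto_nhds] at this
    refine (this (1 / (2 * c)) (by positivity)).mono fun u hu => ?_
    rw [← dist_eq_norm]
    exact hu.le
  obtain ⟨η, hη, hball⟩ := Metric.eventually_nhds_iff_ball.1
    (Filter.Eventually.and (Filter.Eventually.and (p := fun u => u ∈ O) (q := fun u => u ∈ T)
      (hO.mem_nhds hu) hT) hnear)
  refine ⟨η, hη, L * (2 * c) ^ 2, fun u hu1 u' hu2 => ?_⟩
  set B := ball u₀ η with hB
  have hseg : segment ℝ u u' ⊆ B := (convex_ball u₀ η).segment_subset hu1 hu2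
  have h1 : ‖f u' - f u - fderiv ℝ f u (u' - u)‖ ≤ L * ‖u' - u‖ * ‖u' - u‖ := by
    refine (convex_segment u u').norm_image_sub_le_of_norm_fderiv_le'
      (fun v hv => hd v (hball v (hseg hv)).1.1) (fun v hv => ?_) (left_mem_segment ℝ u u')
      (right_mem_segment ℝ u u')
    refine (hL.norm_sub_le (hball v (hseg hv)).1.2 (hball u hu1).1.2).trans ?_
    refine mul_le_mul_of_nonneg_left ?_ L.2
    have := norm_sub_le_of_mem_segment hv
    rw [norm_sub_rev v u]
    simpa [norm_sub_rev] using this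
  have h2 : ‖u' - u‖ ≤ 2 * c * ‖f u' - f u‖ := by
    have e := (convex_ball u₀ η).norm_image_sub_le_of_norm_fderiv_le'
      (fun v hv => hd v (hball v hv).1.1) (fun v hv => (hball v hv).2) hu1 hu2
    have a := hanti.le_mul_dist u' u
    rw [dist_eq_norm, dist_eq_norm] at a
    simp only [ContinuousLinearMap.coe_coe, ← map_sub] at a
    have b := norm_sub_norm_le (fderiv ℝ f u₀ (u' - u)) (f u' - f u)
    rw [norm_sub_rev (fderiv ℝ f u₀ (u' - u))] at b
    have e' : (c : ℝ) * (1 / (2 * c) * ‖u' - u‖) = ‖u' - u‖ / 2 := by field_simp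
    nlinarith [mul_le_mul_of_nonneg_left e hcR.le, mul_le_mul_of_nonneg_left b hcR.le]
  calc ‖coProj (fderiv ℝ f u) (f u' - f u)‖
      = ‖coProj (fderiv ℝ f u) (f u' - f u - fderiv ℝ f u (u' - u))‖ := by
        rw [map_sub _ (f u' - f u), coProj_apply_image, sub_zero]
    _ ≤ L * ‖u' - u‖ * ‖u' - u‖ := (norm_coProj_le _ _).trans h1
    _ ≤ L * (2 * c * ‖f u' - f u‖) * (2 * c * ‖f u' - f u‖) := by
        have : (0 : ℝ) ≤ L := L.2
        gcongr
    _ = L * (2 * c) ^ 2 * ‖f u' - f u‖ ^ 2 := by ring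

theorem coProj_nearest (hO : IsOpen O) (hf : ContDiffOn ℝ 2 f O) {u : V} (hu : u ∈ O) {x : E}
    (hmin : ∀ u' ∈ O, dist x (f u) ≤ dist x (f u')) :
    coProj (fderiv ℝ f u) (x - f u) = x - f u := by
  refine coProj_of_orthogonal _ fun h => ?_
  have hd : HasFDerivAt f (fderiv ℝ f u) u :=
    ((hf.differentiableOn (by norm_num)).differentiableAt (hO.mem_nhds hu)).hasFDerivAt
  have hg := ((hasFDerivAt_const x u).sub hd).norm_sq
  have hloc : IsLocalMin (fun u' => ‖x - f u'‖ ^ 2) u := by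
    filter_upwards [hO.mem_nhds hu] with u' hu'
    have := hmin u' hu'
    rw [dist_eq_norm, dist_eq_norm] at this
    exact pow_le_pow_left₀ (norm_nonneg _) this 2
  have h0 := congrArg (fun T : V →L[ℝ] ℝ => T h) (hloc.hasFDerivAt_eq_zero hg)
  simp at h0
  rw [inner_sub_left]
  linarith

end Vale.Agent.P216.Onto
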