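import Vale.Agent.P216.Onto.Tube
import Vale.Agent.P216.Onto.Chart

/-!
# On a closed smooth manifold a map homotopic to the identity is onto

No orientation is needed. The manifold is embedded in a Euclidean space with its normal projections.
-/

namespace Vale.Agent.P216.Onto

open Filter Topology Set Function Metric
open scoped Manifold ContDiff RealInnerProductSpace

variable {n : ℕ} {X : Type*} [TopologicalSpace X] [ChartedSpace (EuclideanSpace ℝ (Fin n)) X]
  {N : ℕ}

/-- The derivative of a map into a Euclidean space, as a linear map of model spaces. -/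
noncomputable def derivMap (e : X → EuclideanSpace ℝ (Fin N)) (p : X) :
    EuclideanSpace ℝ (Fin n) →L[ℝ] EuclideanSpace ℝ (Fin N) :=
  mfderiv (𝓡 n) 𝓘(ℝ, EuclideanSpace ℝ (Fin N)) e p

variable [IsManifold (𝓡 n) ∞ X] {e : X → EuclideanSpace ℝ (Fin N)}

theorem chart_facts (he : ContMDiff (𝓡 n) 𝓘(ℝ, EuclideanSpace ℝ (Fin N)) ∞ e)
    (hinj : ∀ x, Injective (derivMap (n := n) e x)) (p₀ : X) :
    IsOpen (extChartAt (𝓡 n) p₀).target ∧
    ContDiffOn ℝ 2 (e ∘ (extChartAt (𝓡 n) p₀).symm) (extChartAt (𝓡 n) p₀).target ∧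
    (∀ u ∈ (extChartAt (𝓡 n) p₀).target,
      Injective (fderiv ℝ (e ∘ (extChartAt (𝓡 n) p₀).symm) u) ∧
      coProj (fderiv ℝ (e ∘ (extChartAt (𝓡 n) p₀).symm) u) =
        coProj (derivMap (n := n) e ((extChartAt (𝓡 n) p₀).symm u))) := by
  set φ := extChartAt (𝓡 n) p₀ with hφ
  have hO : IsOpen φ.target := isOpen_extChartAt_target p₀
  have hs : ContMDiffOn 𝓘(ℝ, EuclideanSpace ℝ (Fin n)) (𝓡 n) ∞ φ.symm φ.target :=
    contMDiffOn_extChartAt_symm p₀
  refine ⟨hO, ((he.comp_contMDiffOn hs).contDiffOn).of_le (WithTop.coe_le_coe.2 le_top),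
    fun u hu => ?_⟩
  have hd : MDifferentiableAt 𝓘(ℝ, EuclideanSpace ℝ (Fin n)) (𝓡 n) φ.symm u :=
    (hs.contMDiffAt (hO.mem_nhds hu)).mdifferentiableAt (by simp)
  set S : EuclideanSpace ℝ (Fin n) →L[ℝ] EuclideanSpace ℝ (Fin n) :=
    mfderiv 𝓘(ℝ, EuclideanSpace ℝ (Fin n)) (𝓡 n) φ.symm u with hS
  have hSinv : Bijective S := by
    have h := isInvertible_mfderivWithin_extChartAt_symm (I := 𝓡 n) hu
    rw [ModelWithCorners.range_eq_univ, mfderivWithin_univ] at h
    exact h.bijective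
  have hcomp : fderiv ℝ (e ∘ φ.symm) u = (derivMap (n := n) e (φ.symm u)).comp S := by
    rw [← mfderiv_eq_fderiv]
    exact mfderiv_comp u ((he.mdifferentiable (by simp)) _) hd
  refine ⟨?_, ?_⟩
  · rw [hcomp]
    exact (hinj _).comp hSinv.1
  · have hr : LinearMap.range ((derivMap (n := n) e (φ.symm u)).comp S :
        EuclideanSpace ℝ (Fin n) →ₗ[ℝ] EuclideanSpace ℝ (Fin N)) =
        LinearMap.range (derivMap (n := n) e (φ.symm u) :
        EuclideanSpace ℝ (Fin n) →ₗ[ℝ] EuclideanSpace ℝ (Fin N)) :=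
      LinearMap.range_comp_of_range_eq_top _ (LinearMap.range_eq_top.2 hSinv.2)
    simp only [hcomp, coProj, hr]

theorem exists_normalField [T2Space X] [CompactSpace X]
    (he : ContMDiff (𝓡 n) 𝓘(ℝ, EuclideanSpace ℝ (Fin N)) ∞ e) (hemb : IsClosedEmbedding e)
    (hinj : ∀ x, Injective (derivMap (n := n) e x)) :
    ∃ P, ∃ ε > 0, NormalField (range e) P ε := by
  classical
  rcases isEmpty_or_nonempty X with hX | hX
  · exact ⟨0, 1, one_pos,
      { idem := by simp [range_eq_empty]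
        symm := by simp [range_eq_empty]
        cont := by simp [range_eq_empty]
        nearest := by simp [range_eq_empty]
        unique := by simp [range_eq_empty] }⟩
  set P : EuclideanSpace ℝ (Fin N) → EuclideanSpace ℝ (Fin N) →L[ℝ] EuclideanSpace ℝ (Fin N) :=
    fun q => coProj (derivMap (n := n) e (invFun e q)) with hP
  have hPe : ∀ p, P (e p) = coProj (derivMap (n := n) e p) := fun p => by
    simp only [hP, leftInverse_invFun hemb.injective p]
  have hloc : ∀ p₀ : X, ∀ᶠ p in 𝓝 p₀, p ∈ (extChartAt (𝓡 n) p₀).source ∧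
      P (e p) = coProj (fderiv ℝ (e ∘ (extChartAt (𝓡 n) p₀).symm) (extChartAt (𝓡 n) p₀ p)) := by
    intro p₀
    filter_upwards [(isOpen_extChartAt_source (I := 𝓡 n) p₀).mem_nhds
      (mem_extChartAt_source p₀)] with p hp
    refine ⟨hp, ?_⟩
    rw [((chart_facts he hinj p₀).2.2 _ ((extChartAt (𝓡 n) p₀).map_source hp)).2,
      (extChartAt (𝓡 n) p₀).left_inv hp, hPe]
  have hcont : ContinuousOn P (range e) := by
    have hc : Continuous fun p => P (e p) := by
      refine continuous_iff_continuousAt.2 fun p₀ => ?_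
      obtain ⟨hO, hf, hu⟩ := chart_facts he hinj p₀
      have hu₀ := (extChartAt (𝓡 n) p₀).map_source (mem_extChartAt_source p₀)
      refine ((continuousAt_coProj_fderiv hO hf hu₀ (hu _ hu₀).1).comp
        (continuousAt_extChartAt (I := 𝓡 n) p₀)).congr ((hloc p₀).mono fun p hp => hp.2.symm)
    rw [continuousOn_iff_continuous_domRestrict]
    refine (hc.comp hemb.isEmbedding.toHomeomorph.symm.continuous).congr fun q => ?_
    show P (e (hemb.isEmbedding.toHomeomorph.symm q)) = P q.1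
    obtain ⟨_, p, rfl⟩ := q
    exact congrArg (fun p => P (e p)) (hemb.isEmbedding.toHomeomorph.symm_apply_apply p)
  obtain ⟨m, hm⟩ : ∃ m : ℕ, ∀ p p' : X, ‖e p' - e p‖ ≤ 1 / (m + 1) →
      ‖P (e p) (e p' - e p)‖ ≤ (m + 1) * ‖e p' - e p‖ ^ 2 := by
    by_contra! hcon
    choose a b hab hbad using hcon
    obtain ⟨U, hU⟩ := exists_ultrafilter_le (atTop : Filter ℕ)
    obtain ⟨p₀, -, hp₀'⟩ := isCompact_univ.ultrafilter_le_nhds (U.map a) (by simp)
    have hp₀ : Tendsto a U (𝓝 p₀) := hp₀'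
    have hb : Tendsto b U (𝓝 p₀) := by
      rw [hemb.isInducing.tendsto_nhds_iff]
      have h1 : Tendsto (fun k => e (b k) - e (a k)) U (𝓝 0) :=
        (squeeze_zero_norm hab tendsto_one_div_add_atTop_nhds_zero_nat).mono_left hU
      have h2 := h1.add (((hemb.continuous).tendsto p₀).comp hp₀)
      simpa [Function.comp_def] using h2
    obtain ⟨hO, hf, hu⟩ := chart_facts he hinj p₀
    have hu₀ := (extChartAt (𝓡 n) p₀).map_source (mem_extChartAt_source p₀)
    obtain ⟨η, hη, C, hC⟩ := exists_chord_bound hO hf hu₀ (hu _ hu₀).1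
    have hnear : ∀ᶠ p in 𝓝 p₀, extChartAt (𝓡 n) p₀ p ∈ ball (extChartAt (𝓡 n) p₀ p₀) η :=
      (continuousAt_extChartAt (I := 𝓡 n) p₀) (ball_mem_nhds _ hη)
    obtain ⟨M, hM⟩ := exists_nat_gt C
    obtain ⟨k, ⟨⟨⟨ha, ha'⟩, hb', hb''⟩, hk⟩⟩ := (((hp₀.eventually ((hloc p₀).and hnear)).and
      (hb.eventually ((hloc p₀).and hnear))).and
        (hU (eventually_ge_atTop M))).exists
    have h := hC _ ha' _ hb''
    simp only [Function.comp_apply, (extChartAt (𝓡 n) p₀).left_inv ha.1,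
      (extChartAt (𝓡 n) p₀).left_inv hb'.1] at h
    rw [← ha.2] at h
    have hkR : (M : ℝ) ≤ k := by exact_mod_cast hk
    have hz := hbad k
    rcases eq_or_ne (e (b k) - e (a k)) 0 with he0 | he0
    · rw [he0] at hz
      simp at hz
    · have : (0 : ℝ) < ‖e (b k) - e (a k)‖ ^ 2 := by positivity
      nlinarith
  refine ⟨P, 1 / (4 * (m + 1)), by positivity,
    { idem := fun q _ v => coProj_idem _ v
      symm := fun q _ v w => coProj_symm _ v w
      cont := hcont
      nearest := ?_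
      unique := ?_ }⟩
  · rintro x _ ⟨p, rfl⟩ hd
    obtain ⟨hO, hf, hu⟩ := chart_facts he hinj p
    have hu₀ := (extChartAt (𝓡 n) p).map_source (mem_extChartAt_source p)
    have hpp : (extChartAt (𝓡 n) p).symm (extChartAt (𝓡 n) p p) = p := extChartAt_to_inv p
    have := coProj_nearest hO hf hu₀ (x := x) fun u' _ => by
      rw [Function.comp_apply, hpp, hd]
      exact infDist_le_dist_of_mem ⟨_, rfl⟩
    rw [Function.comp_apply, hpp, (hu _ hu₀).2, hpp, ← hPe] at this
    exact this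
  · rintro _ ⟨p, rfl⟩ _ ⟨p', rfl⟩ v v' hv hv' hnv hnv' heq
    set w := e p' - e p with hw
    have hwv : w = v - v' := by
      rw [hw, sub_eq_sub_iff_add_eq_add, ← heq, add_comm]
    have hw0 : ‖w‖ ≤ 1 / (m + 1) := by
      rw [hwv]
      refine (norm_sub_le _ _).trans ((add_le_add hnv hnv').trans ?_)
      have : (0 : ℝ) < m + 1 := by positivity
      field_simp
      norm_num
    have hw' : ‖e p - e p'‖ = ‖w‖ := norm_sub_rev _ _
    have b1 := hm p p' hw0
    have b2 := hm p' p (by rw [hw']; exact hw0)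
    rw [hw'] at b2
    have c1 : ⟪v, w⟫ ≤ ‖v‖ * ‖P (e p) w‖ := by
      rw [← hv, hPe, coProj_symm, ← hPe, hv]
      exact real_inner_le_norm _ _
    have c2 : ⟪v', e p - e p'⟫ ≤ ‖v'‖ * ‖P (e p') (e p - e p')‖ := by
      rw [← hv', hPe, coProj_symm, ← hPe, hv']
      exact real_inner_le_norm _ _
    have e1 : ‖w‖ ^ 2 = ⟪v, w⟫ + ⟪v', e p - e p'⟫ := by
      rw [← real_inner_self_eq_norm_sq, show e p - e p' = -w by rw [hw]; abel, inner_neg_right,
        ← sub_eq_add_neg, ← inner_sub_left, ← hwv]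
    have hε : 1 / (4 * ((m : ℝ) + 1)) * ((m + 1) * ‖w‖ ^ 2) = ‖w‖ ^ 2 / 4 := by field_simp
    have d1 : ‖v‖ * ‖P (e p) w‖ ≤ ‖w‖ ^ 2 / 4 :=
      hε ▸ mul_le_mul hnv b1 (norm_nonneg _) (by positivity)
    have d2 : ‖v'‖ * ‖P (e p') (e p - e p')‖ ≤ ‖w‖ ^ 2 / 4 :=
      hε ▸ mul_le_mul hnv' b2 (norm_nonneg _) (by positivity)
    have hw1 : w = 0 := norm_eq_zero.1 (by nlinarith [norm_nonneg w])
    refine ⟨(sub_eq_zero.1 (by rw [← hw]; exact hw1)).symm, ?_⟩
    rw [hw1] at hwv
    exact sub_eq_zero.1 hwv.symm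

/-- On a closed smooth manifold, orientable or not, a map homotopic to the identity is onto. -/
theorem surjective_of_homotopic_id_manifold {n : ℕ} {X : Type*} [TopologicalSpace X]
    [ChartedSpace (EuclideanSpace ℝ (Fin n)) X] [IsManifold (𝓡 n) ∞ X] [T2Space X]
    [CompactSpace X] (f : C(X, X)) (hf : (ContinuousMap.id X).Homotopic f) : Surjective f := by
  intro x₁
  obtain ⟨N, e, he, hemb, hinj⟩ := exists_embedding_euclidean_of_compact (I := 𝓡 n) (M := X)
  obtain ⟨P, ε, hε, hP⟩ := exists_normalField he hemb hinj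
  obtain ⟨H⟩ := hf
  have hne : Nonempty X := ⟨x₁⟩
  set h : ℝ × EuclideanSpace ℝ (Fin N) → EuclideanSpace ℝ (Fin N) :=
    fun z => e (H (projIcc 0 1 zero_le_one z.1, invFun e z.2)) with hh
  have hinvc : ContinuousOn (invFun e) (range e) := by
    rw [continuousOn_iff_continuous_domRestrict]
    refine hemb.isEmbedding.toHomeomorph.symm.continuous.congr fun q => ?_
    obtain ⟨_, p, rfl⟩ := q
    simp only [Set.domRestrict_apply, leftInverse_invFun hemb.injective p]
    exact hemb.isEmbedding.toHomeomorph.symm_apply_apply p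
  obtain ⟨q, hq, hqe⟩ := exists_eq_of_homotopy hP hε (isCompact_range hemb.continuous) h
    ((hemb.continuous.comp H.continuous).comp_continuousOn
      ((continuous_projIcc.comp continuous_fst).continuousOn.prodMk
        (hinvc.comp continuousOn_snd fun z hz => hz.2)))
    (fun t _ q _ => ⟨_, rfl⟩) (fun q hq => by simp [hh, invFun_eq hq])
    ⟨x₁, rfl⟩
  refine ⟨invFun e q, hemb.injective ?_⟩
  simpa [hh] using hqe

end Vale.Agent.P216.Onto
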