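import Mathlib
import Vale.Agent.P371.All.Brouwer

/-!
# A homotopy of the identity stays onto, for compact sets with normal projections

For a compact subset of a Euclidean space with a continuous field of orthogonal normal projections
and a quadratic bound on the normal part of short chords, every end of a homotopy from the identity
is onto. The normal vectors are carried along the homotopy, and Brouwer's theorem gives a zero.
-/

namespace Vale.Agent.P216.Onto

open Filter Topology Set Function Metric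
open scoped RealInnerProductSpace

variable {E : Type*} [NormedAddCommGroup E] [InnerProductSpace ℝ E] [FiniteDimensional ℝ E]

/-- A normal field of a compact set. -/
structure NormalField (K : Set E) (P : E → E →L[ℝ] E) (ε : ℝ) : Prop where
  idem : ∀ q ∈ K, ∀ v, P q (P q v) = P q v
  symm : ∀ q ∈ K, ∀ v w, ⟪P q v, w⟫ = ⟪v, P q w⟫
  cont : ContinuousOn P K
  nearest : ∀ x, ∀ q ∈ K, dist x q = infDist x K → P q (x - q) = x - q
  unique : ∀ q ∈ K, ∀ q' ∈ K, ∀ v v', P q v = v → P q' v' = v' → ‖v‖ ≤ ε → ‖v'‖ ≤ ε →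
    q + v = q' + v' → q = q' ∧ v = v'

omit [FiniteDimensional ℝ E] in
theorem NormalField.norm_le {K : Set E} {P : E → E →L[ℝ] E} {ε : ℝ} (h : NormalField K P ε)
    {q : E} (hq : q ∈ K) (v : E) : ‖P q v‖ ≤ ‖v‖ := by
  have e : ⟪P q v, P q v⟫ = ⟪v, P q v⟫ := by rw [h.symm q hq, h.idem q hq]
  rw [real_inner_self_eq_norm_mul_norm] at e
  have := real_inner_le_norm v (P q v)
  nlinarith [norm_nonneg (P q v), norm_nonneg v]

/-- The normal vector carried along a homotopy in finitely many steps. -/
noncomputable def carry (P : E → E →L[ℝ] E) (h : ℝ × E → E) (m : ℕ) (t : ℝ) (q v : E) : ℕ → E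
  | 0 => v
  | i + 1 => P (h (min t ((i + 1 : ℕ) / (m : ℝ)), q)) (carry P h m t q v i)

variable {K : Set E} {P : E → E →L[ℝ] E} {ε : ℝ}

theorem exists_eq_of_homotopy (hP : NormalField K P ε) (hε : 0 < ε) (hK : IsCompact K)
    (h : ℝ × E → E) (hc : ContinuousOn h (Icc 0 1 ×ˢ K))
    (hmem : ∀ t ∈ Icc (0 : ℝ) 1, ∀ q ∈ K, h (t, q) ∈ K) (h0 : ∀ q ∈ K, h (0, q) = q)
    {y : E} (hy : y ∈ K) : ∃ q ∈ K, h (1, q) = y := by
  classical
  by_contra! hcon
  have hne : K.Nonempty := ⟨y, hy⟩
  -- nearest points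
  choose π hπK hπd using fun x => hK.exists_infDist_eq_dist hne x
  set S : Set E := {x | infDist x K ≤ ε} with hS
  have hSc : IsClosed S := isClosed_le (continuous_infDist_pt K) continuous_const
  have hSb : IsCompact S := by
    obtain ⟨R, hR⟩ := hK.isBounded.subset_closedBall (0 : E)
    refine (isCompact_closedBall (0 : E) (R + ε)).of_isClosed_subset hSc fun x hx => ?_
    have h1 := hR (hπK x)
    simp only [Metric.mem_closedBall, dist_zero_right] at h1 ⊢
    have h2 : dist x (π x) ≤ ε := (hπd x).symm.le.trans hx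
    have h3 := dist_triangle x (π x) 0
    simp only [dist_zero_right] at h3
    linarith
  have hnorm : ∀ x ∈ S, ‖x - π x‖ ≤ ε := fun x hx => by
    rw [← dist_eq_norm, ← hπd]; exact hx
  have hπuniq : ∀ x ∈ S, ∀ q ∈ K, dist x q = infDist x K → q = π x := by
    intro x hx q hq hd
    refine (hP.unique q hq _ (hπK x) _ _ (hP.nearest x q hq hd)
      (hP.nearest x _ (hπK x) (hπd x).symm) ?_ (hnorm x hx) (by abel)).1
    rw [← dist_eq_norm, hd]
    exact hx
  have hπc : ContinuousOn π S := by
    rw [continuousOn_iff_isClosed]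
    intro A hA
    rcases (A ∩ K).eq_empty_or_nonempty with he | hAne
    · refine ⟨∅, isClosed_empty, ?_⟩
      ext x
      simp only [mem_inter_iff, mem_preimage, mem_empty_iff_false, false_and, iff_false]
      exact fun hx => (he ▸ ⟨hx.1, hπK x⟩ : π x ∈ (∅ : Set E))
    · refine ⟨{x | infDist x (A ∩ K) ≤ infDist x K},
        isClosed_le (continuous_infDist_pt _) (continuous_infDist_pt _), ?_⟩
      ext x
      simp only [mem_inter_iff, mem_preimage, mem_ofPred_eq, and_congr_left_iff]
      intro hx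
      constructor
      · intro hxA
        rw [hπd]
        exact infDist_le_dist_of_mem ⟨hxA, hπK x⟩
      · intro hle
        obtain ⟨q, hq, hqd⟩ := (hK.inter_left hA).exists_infDist_eq_dist hAne x
        have : dist x q = infDist x K :=
          le_antisymm (hqd ▸ hle) (infDist_le_dist_of_mem hq.2)
        exact hπuniq x hx q hq.2 this ▸ hq.1
  -- steps along which normal spaces move little
  set Q : ℝ × E → E →L[ℝ] E := fun z => P (h z) with hQ
  have hQc : ContinuousOn Q (Icc 0 1 ×ˢ K) := hP.cont.comp hc fun z hz => hmem _ hz.1 _ hz.2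
  obtain ⟨η, hη, hQu⟩ := Metric.uniformContinuousOn_iff.1
    ((isCompact_Icc.prod hK).uniformContinuousOn_of_continuous hQc) 1 one_pos
  obtain ⟨m, hm⟩ : ∃ m : ℕ, (1 : ℝ) / m < η ∧ 0 < m := by
    obtain ⟨m, hm⟩ := exists_nat_gt (1 / η)
    have hm0 : (0 : ℝ) < m := lt_trans (by positivity) hm
    refine ⟨m, ?_, by exact_mod_cast hm0⟩
    rw [div_lt_iff₀ hm0]
    rw [div_lt_iff₀ hη] at hm
    linarith
  obtain ⟨hm, hm0⟩ := hm
  have hmR : (0 : ℝ) < m := by exact_mod_cast hm0
  set τ : ℕ → ℝ → ℝ := fun i t => min t ((i : ℕ) / (m : ℝ)) with hτdef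
  have hτ : ∀ i, ∀ t ∈ Icc (0 : ℝ) 1, τ i t ∈ Icc (0 : ℝ) 1 := fun i t ht =>
    ⟨le_min ht.1 (by positivity), (min_le_left _ _).trans ht.2⟩
  have hinv : ∀ t ∈ Icc (0 : ℝ) 1, ∀ q ∈ K, ∀ v, P q v = v → ∀ i,
      P (h (τ i t, q)) (carry P h m t q v i) = carry P h m t q v i ∧
        ‖carry P h m t q v i‖ ≤ ‖v‖ ∧ (carry P h m t q v i = 0 → v = 0) := by
    intro t ht q hq v hv i
    induction i with
    | zero =>
      have e : τ 0 t = 0 := by simp [hτdef, ht.1]
      rw [e, h0 q hq]
      exact ⟨hv, le_rfl, id⟩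
    | succ i ih =>
      obtain ⟨ih1, ih2, ih3⟩ := ih
      set a := carry P h m t q v i with ha
      have e : carry P h m t q v (i + 1) = P (h (τ (i + 1) t, q)) a := rfl
      have hb := hmem _ (hτ (i + 1) t ht) q hq
      refine ⟨by rw [e, hP.idem _ hb], by rw [e]; exact (hP.norm_le hb a).trans ih2, fun hz => ?_⟩
      refine ih3 ?_
      have hd : dist (τ i t, q) (τ (i + 1) t, q) < η := by
        rw [Prod.dist_eq, dist_self, max_eq_left dist_nonneg, Real.dist_eq]
        refine lt_of_le_of_lt ?_ hm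
        refine (abs_min_sub_min_le_max _ _ _ _).trans (max_le (by simp) ?_)
        rw [← sub_div, abs_div, abs_of_pos hmR]
        push_cast
        simp
      have hlt := hQu _ ⟨hτ i t ht, hq⟩ _ ⟨hτ (i + 1) t ht, hq⟩ hd
      rw [dist_eq_norm] at hlt
      have h1 : (Q (τ i t, q) - Q (τ (i + 1) t, q)) a = a := by
        rw [e] at hz
        simp only [hQ, ContinuousLinearMap.sub_apply, ih1, hz, sub_zero]
      have h2 := (Q (τ i t, q) - Q (τ (i + 1) t, q)).le_opNorm a
      rw [h1] at h2
      by_contra ha0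
      nlinarith [norm_pos_iff.2 ha0]
  have hcarry0 : ∀ q ∈ K, ∀ v, P q v = v → ∀ i, carry P h m 0 q v i = v := by
    intro q hq v hv i
    induction i with
    | zero => rfl
    | succ i ih =>
      show P (h (min 0 _, q)) (carry P h m 0 q v i) = v
      rw [ih, min_eq_left (by positivity), h0 q hq, hv]
  have hcarryc : ∀ i, ContinuousOn
      (fun z : ℝ × E => carry P h m z.1 (π z.2) (z.2 - π z.2) i) (Icc 0 1 ×ˢ S) := by
    have hp : ContinuousOn (fun z : ℝ × E => π z.2) (Icc 0 1 ×ˢ S) :=
      hπc.comp continuousOn_snd fun z hz => hz.2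
    intro i
    induction i with
    | zero => exact continuousOn_snd.sub hp
    | succ i ih =>
      refine ContinuousOn.clm_apply (hQc.comp (ContinuousOn.prodMk ?_ hp) fun z hz => ?_) ih
      · exact (continuous_fst.min continuous_const).continuousOn
      · exact ⟨hτ (i + 1) z.1 hz.1, hπK _⟩
  -- the map without zero
  set F : ℝ → E → E := fun t x => h (t, π x) + carry P h m t (π x) (x - π x) m - y with hF
  have hFc : ContinuousOn (fun z : ℝ × E => F z.1 z.2) (Icc 0 1 ×ˢ S) :=
    ((hc.comp (continuousOn_fst.prodMk (hπc.comp continuousOn_snd fun z hz => hz.2))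
      fun z hz => ⟨hz.1, hπK _⟩).add (hcarryc m)).sub continuousOn_const
  have hvn : ∀ x, P (π x) (x - π x) = x - π x := fun x => hP.nearest x _ (hπK x) (hπd x).symm
  have hF0 : ∀ x, F 0 x = x - y := fun x => by
    simp only [hF, h0 _ (hπK x), hcarry0 _ (hπK x) _ (hvn x) m]
    abel
  have hzero : ∀ t ∈ Icc (0 : ℝ) 1, ∀ x ∈ S, F t x = 0 → h (t, π x) = y ∧ x = π x := by
    intro t ht x hx he
    obtain ⟨a1, a2, a3⟩ := hinv t ht _ (hπK x) _ (hvn x) m
    have e : τ m t = t := by simp [hτdef, div_self hmR.ne', ht.2]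
    rw [e] at a1
    obtain ⟨b1, b2⟩ := hP.unique _ (hmem t ht _ (hπK x)) y hy _ 0 a1 (map_zero _)
      (a2.trans (hnorm x hx)) (by simpa using hε.le) (by rw [add_zero]; exact sub_eq_zero.1 he)
    exact ⟨b1, sub_eq_zero.1 (a3 b2)⟩
  set w : E → ℝ := fun x => max 0 (1 - infDist x K / ε) with hw
  have hwI : ∀ x, w x ∈ Icc (0 : ℝ) 1 := fun x =>
    ⟨le_max_left _ _, max_le zero_le_one (by
      linarith [div_nonneg (infDist_nonneg (x := x) (s := K)) hε.le])⟩
  set G : E → E := fun x => if infDist x K ≤ ε then F (w x) x else x - y with hG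
  have hGc : Continuous G := by
    refine continuous_if_le (continuous_infDist_pt K) continuous_const ?_
      (continuous_id.sub continuous_const).continuousOn fun x hx => ?_
    · exact hFc.comp ((continuous_const.max (continuous_const.sub
        ((continuous_infDist_pt K).div_const ε))).prodMk continuous_id).continuousOn
        fun x hx => ⟨hwI x, hx⟩
    · have e : w x = 0 := by simp [hw, hx, div_self hε.ne']
      rw [e, hF0]
  have hGne : ∀ x, G x ≠ 0 := by
    intro x
    simp only [hG]
    split_ifs with hx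
    · intro he
      obtain ⟨e1, e2⟩ := hzero _ (hwI x) x hx he
      have hxK : x ∈ K := e2 ▸ hπK x
      have e3 : w x = 1 := by simp [hw, infDist_zero_of_mem hxK]
      rw [e3] at e1
      exact hcon _ (hπK x) e1
    · intro he
      rw [sub_eq_zero] at he
      rw [he, infDist_zero_of_mem hy] at hx
      exact hx hε.le
  obtain ⟨R, hR⟩ := (((hSb.image (continuous_id.sub hGc)).union
    isCompact_singleton : IsCompact ((fun x => x - G x) '' S ∪ {y})).isBounded).subset_closedBall 0
  have hmaps : ∀ x, x - G x ∈ closedBall (0 : E) R := by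
    intro x
    refine hR ?_
    by_cases hx : infDist x K ≤ ε
    · exact Or.inl ⟨x, hx, rfl⟩
    · refine Or.inr ?_
      simp only [hG, if_neg hx, sub_sub_cancel, mem_singleton_iff]
  obtain ⟨x, -, hx⟩ := Vale.Agent.P371.All.brouwer_euclidean (isCompact_closedBall (0 : E) R)
    (convex_closedBall 0 R) ⟨y - G y, hmaps y⟩ (continuous_id.sub hGc).continuousOn
    (fun x _ => hmaps x)
  exact hGne x (sub_eq_self.1 hx)

end Vale.Agent.P216.Onto
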